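import Vale.Agent.P011.H519.SplitPlaceK

/-!
The letters of T3 over function fields: the field-general form of `Even.Setting`.
-/

open Module

set_option linter.unusedSectionVars false

open Vale.Agent.P011.H738 Vale.Agent.P011.H271

namespace Vale.Agent.P011.H305

section

variable (k K D : Type) [Field k] [Field K] [StarRing K] [DivisionRing D] [StarRing D]
  [Algebra k K] [Algebra k D] [Algebra K D] [IsScalarTower k K D]

/-- `K` is a quadratic extension of the field `k` generated by the square root `s` of `d`, with the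
nontrivial automorphism `star`, and `D` is a central division algebra over `K`, with an involution
extending `star`. -/
structure SetF (d : kˣ) (s : K) : Prop where
  sq : s ^ 2 = algebraMap k K d
  star_s : star s = -s
  ns : ¬ IsSquare (d : k)
  fix : ∀ x : K, star x = x ↔ x ∈ Set.range (algebraMap k K)
  rank : finrank k K = 2
  fin : FiniteDimensional K D
  cen : Algebra.IsCentral K D
  star_smul : ∀ (x : K) (y : D), star (x • y) = star x • star y

end

variable {k K D : Type} [Field k] [Field K] [StarRing K] [DivisionRing D] [StarRing D]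
  [Algebra k K] [Algebra k D] [Algebra K D] [IsScalarTower k K D] {d : kˣ} {s : K} {n : ℕ}

namespace SetF

theorem s_ne (h : SetF k K D d s) : s ≠ 0 := by
  rintro rfl
  have h1 := h.sq
  rw [zero_pow two_ne_zero, eq_comm, map_eq_zero] at h1
  exact d.ne_zero h1

theorem two_ne (h : SetF k K D d s) : (2 : k) ≠ 0 := by
  intro h2
  have h3 : star s = s := by
    have h4 : (2 : K) = 0 := by
      rw [← map_ofNat (algebraMap k K) 2, h2, map_zero]
    rw [h.star_s, neg_eq_iff_add_eq_zero, ← two_mul, h4, zero_mul]
  obtain ⟨c, hc⟩ := (h.fix s).mp h3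
  refine h.ns ⟨c, ?_⟩
  apply (algebraMap k K).injective
  rw [← h.sq, map_mul, hc, pow_two]

theorem star_algebraMap (h : SetF k K D d s) (c : k) :
    star (algebraMap k K c) = algebraMap k K c := (h.fix _).mpr ⟨c, rfl⟩

theorem starModule (h : SetF k K D d s) : StarModule K D := ⟨h.star_smul⟩

/-- The involution is linear over `k`. -/
theorem star_smulk (h : SetF k K D d s) (c : k) (x : D) : star (c • x) = c • star x := by
  rw [← algebraMap_smul K c x, h.star_smul, h.star_algebraMap, algebraMap_smul]

theorem star_ne (h : SetF k K D d s) : star s ≠ s := by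
  intro h3
  obtain ⟨c, hc⟩ := (h.fix s).mp h3
  refine h.ns ⟨c, ?_⟩
  apply (algebraMap k K).injective
  rw [← h.sq, map_mul, hc, pow_two]

/-- The letters of the function field library. -/
theorem anis [StarModule K D] (h : SetF k K D d s) (hn : finrank K D = n ^ 2) :
    Anis k K D n where
  fixed := h.fix
  star_ne := ⟨s, h.star_ne⟩
  central := h.cen
  simple := inferInstance
  finrank_eq := hn
  anisotropic x hx := by
    rcases mul_eq_zero.mp hx with h1 | h1
    · exact star_eq_zero.mp h1
    · exact h1

end SetF

/-- The square root of a nonsquare in the quadratic extension. -/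
theorem exists_setF [StarModule K D] (hA : Anis k K D n) (hn : n ≠ 0) (h2 : (2 : k) ≠ 0) :
    ∃ (d : kˣ) (s : K), SetF k K D d s := by
  obtain ⟨x, hx⟩ := hA.star_ne
  have h2' : (2 : K) ≠ 0 := by
    rw [← map_ofNat (algebraMap k K) 2]
    exact (map_ne_zero _).mpr h2
  set s : K := x - star x with hs
  have hs0 : s ≠ 0 := sub_ne_zero.mpr (Ne.symm hx)
  have hss : star s = -s := by
    rw [hs, star_sub, star_star, neg_sub]
  obtain ⟨d, hd⟩ := (hA.fixed (s ^ 2)).mp (by rw [star_pow, hss, neg_sq])
  have hd0 : d ≠ 0 := by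
    rintro rfl
    rw [map_zero, eq_comm] at hd
    exact hs0 (pow_eq_zero_iff two_ne_zero |>.mp hd)
  refine ⟨Units.mk0 d hd0, s, ?_, hss, ?_, hA.fixed, ?_, ?_, hA.central, fun c y => star_smul c y⟩
  · rw [Units.val_mk0, hd]
  · rintro ⟨c, hc⟩
    rw [Units.val_mk0] at hc
    rw [hc, map_mul, ← sq, sq_eq_sq_iff_eq_or_eq_neg] at hd
    have h3 : star s = s := by
      rcases hd with h | h
      · rw [← h]; exact (hA.fixed _).mpr ⟨c, rfl⟩
      · rw [← neg_eq_iff_eq_neg] at h
        rw [← h, star_neg, (hA.fixed _).mpr ⟨c, rfl⟩]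
    rw [hss, neg_eq_iff_add_eq_zero, ← two_mul] at h3
    exact (mul_ne_zero h2' hs0) h3
  · obtain ⟨-, -, h⟩ := H519.quad hA.fixed hA.star_ne
    exact h
  · refine FiniteDimensional.of_finrank_pos ?_
    rw [hA.finrank_eq]
    positivity

end Vale.Agent.P011.H305
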