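import Vale.Agent.P011.H305.Three
import Vale.Agent.P011.H74.T3FFc

/-!
**Function fields: from the solvable step to the conjecture**, all subgroups of finite index.
-/

open Module TensorProduct Topology

namespace Vale.Agent.P011.H305

open Vale.Agent.P011.H738 (Place SUA Anis IsGlobalFunctionField)
open Vale.Agent.P011.H732F (GK HA IsDiagonal IsOpenPreimage Adiv)

section ring

variable {k K A Ω : Type} [Field k] [Field K] [StarRing K] [Ring A] [StarRing A]
  [Algebra k K] [Algebra k A] [Algebra K A] [IsScalarTower k K A] [StarModule K A] {n N : ℕ}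
  [Field Ω] [Algebra K Ω]

/-- **The conjecture for `G`** (anisotropic, any degree), from the solvable step: every subgroup
of finite index is the preimage of an open subgroup, which is normal if the subgroup is. -/
theorem all_of_solvF (hk : IsGlobalFunctionField k) (hA : Anis k K A n) (hn : 3 ≤ n)
    (f : A →ₐ[K] Matrix (Fin n) (Fin n) Ω) (B : Basis (Fin N) k A)
    (hsolv : SolvAtF k K f B) :
    ∃ δ : GK f →* HA A n (Adiv k K A), IsDiagonal δ ∧ DenseRange δ ∧
      ∀ M : Subgroup (GK f), M.index ≠ 0 → IsOpenPreimage δ M := by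
  have hKf : FiniteDimensional k K := (H519.quad hA.fixed hA.star_ne).1
  have hAf : FiniteDimensional K A := FiniteDimensional.of_finrank_pos (by
    rw [hA.finrank_eq]; positivity)
  have hAk : FiniteDimensional k A := Module.Finite.trans K A
  have key : ∀ M : Subgroup (SUA f), M.index ≠ 0 → H698.NearA k K f B M := fun M hM => by
    have h1 : M.FiniteIndex := ⟨hM⟩
    have h2 : M.normalCore.Normal := Subgroup.normalCore_normal M
    obtain ⟨T, hT, ε, hε, h⟩ := near_of_solvF hk hA hn f B
      (H732.noTarget_all hk hA (by omega) f B) hsolv M.normalCore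
      M.normalCore.index_ne_zero_of_finite
    exact ⟨T, hT, ε, hε, fun g hg => M.normalCore_le (h g hg)⟩
  obtain ⟨δ, hδ⟩ := H738.exists_diag hA (by omega) f (H738.Adiv k K A)
  refine ⟨δ, hδ, H738.denseRange_diag hk (by omega) hA f (Set.Subset.refl _) hδ,
    fun M hM => ?_⟩
  obtain ⟨T, hT, ε, hε, h⟩ := key M hM
  exact H738.isOpenPreimage_of_near hk (by omega) hA f (Set.Subset.refl _) hδ B hM hT hε h

/-- **The conjecture for all anisotropic outer forms of degree three** over a global function
field of characteristic at least five. -/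
theorem three_all (hk : IsGlobalFunctionField k) (hA : Anis k K A 3) (h2 : (2 : k) ≠ 0)
    (h3 : (3 : k) ≠ 0) (f : A →ₐ[K] Matrix (Fin 3) (Fin 3) Ω) :
    ∃ δ : GK f →* HA A 3 (Adiv k K A), IsDiagonal δ ∧ DenseRange δ ∧
      ∀ M : Subgroup (GK f), M.index ≠ 0 → IsOpenPreimage δ M := by
  have hgff : H271.GFF k := H271.gff_of_isGlobal hk
  have hsim := hA.simple
  let _ : DivisionRing A := DivisionRing.ofIsUnitOrEqZero fun x => by
    by_cases hx : x = 0
    · exact Or.inr hx
    · exact Or.inl (H74.isUnit_of_odd hA (by decide) hx)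
  have hfk : FiniteDimensional k K := (H519.quad hA.fixed hA.star_ne).1
  have hfA : FiniteDimensional K A := FiniteDimensional.of_finrank_pos (by
    rw [hA.finrank_eq]
    positivity)
  have hfkA : FiniteDimensional k A := Module.Finite.trans K A
  exact all_of_solvF hk hA le_rfl f (finBasis k A)
    (H74.solvAtF_three hk hA h2 h3 f (finBasis k A))

end ring

end Vale.Agent.P011.H305
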