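import Vale.Agent.P011.H305.SolvF
import Vale.Agent.P011.H732.FStOf

/-!
**Function fields: from the solvable step to the conjecture**, in the letters of the hand-ins.
-/

open Module TensorProduct Topology

namespace Vale.Agent.P011.H305

open Vale.Agent.P011.H738 (Place SUA Anis IsGlobalFunctionField)
open Vale.Agent.P011.H732F (GK HA IsDiagonal IsOpenPreimage Adiv)

section ring

variable {k K A Ω : Type} [Field k] [Field K] [StarRing K] [Ring A] [StarRing A]
  [Algebra k K] [Algebra k A] [Algebra K A] [IsScalarTower k K A] [StarModule K A] {n N : ℕ}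
  [Field Ω] [Algebra K Ω]

/-- **The conjecture for `G`** (anisotropic, any degree), from the solvable step. -/
theorem conj_of_solvF (hk : IsGlobalFunctionField k) (hA : Anis k K A n) (hn : 3 ≤ n)
    (f : A →ₐ[K] Matrix (Fin n) (Fin n) Ω) (B : Basis (Fin N) k A)
    (hsolv : SolvAtF k K f B) :
    ∃ δ : GK f →* HA A n (Adiv k K A), IsDiagonal δ ∧ DenseRange δ ∧
      ∀ M : Subgroup (GK f), M.Normal → M.index ≠ 0 → IsOpenPreimage δ M := by
  have hKf : FiniteDimensional k K := (H519.quad hA.fixed hA.star_ne).1
  have hAf : FiniteDimensional K A := FiniteDimensional.of_finrank_pos (by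
    rw [hA.finrank_eq]; positivity)
  have hAk : FiniteDimensional k A := Module.Finite.trans K A
  exact q1_of_solvF hk hA hn f B (H732.noTarget_all hk hA (by omega) f B) hsolv

end ring

end Vale.Agent.P011.H305
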