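import Vale.Agent.P011.H698.PlusOf
import Vale.Agent.P011.H738.FBr5
import Vale.Agent.P011.H738.SolvFF
import Vale.Agent.P011.H871.CoreFF

/-!
**Function fields: from the solvable step to the conjecture.**
-/

open Module
open scoped commutatorElement

set_option linter.unusedSectionVars false

namespace Vale.Agent.P011.H305

open Vale.Agent.P011.H738 Vale.Agent.P011.H271 Vale.Agent.P011.H698

section ring

variable {k K A Ω : Type} [Field k] [Field K] [StarRing K] [Ring A] [StarRing A]
  [Algebra k K] [Algebra k A] [Algebra K A] [IsScalarTower k K A] [StarModule K A] {n N : ℕ}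
  [Field Ω] [Algebra K Ω]

variable (k K) in
/-- The solvable step over function fields: a central quotient of prime order of an open normal
subgroup is not given by a dense subgroup. -/
def SolvAtF (f : A →ₐ[K] Matrix (Fin n) (Fin n) Ω) (B : Basis (Fin N) k A) : Prop :=
  ∀ Q H : Subgroup (SUA f), Q.Normal → H.Normal → Q ≤ H → Q.index ≠ 0 →
    NearA k K f B H → (Q.relIndex H).Prime → (∀ g : SUA f, ∀ x ∈ H, ⁅g, x⁆ ∈ Q) →
    (∀ V : Subgroup (SUA f), NearA k K f B V → H ≤ Q ⊔ V) → False

/-- It is enough that the subgroup is open. -/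
theorem solvAtF_of_near {f : A →ₐ[K] Matrix (Fin n) (Fin n) Ω} {B : Basis (Fin N) k A}
    (h : ∀ Q H : Subgroup (SUA f), Q.Normal → H.Normal → Q ≤ H → Q.index ≠ 0 →
      NearA k K f B H → (Q.relIndex H).Prime → (∀ g : SUA f, ∀ x ∈ H, ⁅g, x⁆ ∈ Q) →
      NearA k K f B Q) : SolvAtF k K f B := by
  intro Q H hQ hH hQH hi hpf hp hc hV
  have h1 := hV Q (h Q H hQ hH hQH hi hpf hp hc)
  rw [sup_idem] at h1
  rw [Subgroup.relIndex_eq_one.mpr h1] at hp
  exact Nat.not_prime_one hp

/-- **Every normal subgroup of finite index is open**, from the solvable step. -/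
theorem near_of_solvF (hk : IsGlobalFunctionField k) (hA : Anis k K A n) (hn : 3 ≤ n)
    (f : A →ₐ[K] Matrix (Fin n) (Fin n) Ω) (B : Basis (Fin N) k A)
    {T₀ : Finset (Place k)} {N₀ : ℕ} (hcore : NoTarget f B T₀ N₀)
    (hsolv : SolvAtF k K f B) (M : Subgroup (SUA f)) [M.Normal] (hi : M.index ≠ 0) :
    NearA k K f B M := by
  have := gff_of_isGlobal hk
  rcases plus_of_FF hk hA hn f B (splitNS hA (by omega)) hcore M hi with
    h | ⟨Q, H, hQ, hH, hMQ, hQH, hpf, hp, hc, hV⟩
  · exact h
  · exact (hsolv Q H hQ hH hQH (fun h0 => hi (by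
      have := Subgroup.index_dvd_of_le hMQ
      rw [h0, zero_dvd_iff] at this
      exact this)) hpf hp hc hV).elim

/-- **The conjecture for `G`**, from the solvable step. -/
theorem q1_of_solvF (hk : IsGlobalFunctionField k) (hA : Anis k K A n) (hn : 3 ≤ n)
    [FiniteDimensional k A] (f : A →ₐ[K] Matrix (Fin n) (Fin n) Ω) (B : Basis (Fin N) k A)
    {T₀ : Finset (Place k)} {N₀ : ℕ} (hcore : NoTarget f B T₀ N₀)
    (hsolv : SolvAtF k K f B) :
    ∃ δ : SUA f →* HA A n (Adiv k K A), IsDiagonal δ ∧ DenseRange δ ∧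
      ∀ M : Subgroup (SUA f), M.Normal → M.index ≠ 0 → IsOpenPreimage δ M := by
  obtain ⟨δ, hδ⟩ := exists_diag hA (by omega) f (Adiv k K A)
  refine ⟨δ, hδ, denseRange_diag hk (by omega) hA f (Set.Subset.refl _) hδ, fun M hM hi => ?_⟩
  obtain ⟨T, hT, ε, hε, h⟩ := near_of_solvF hk hA hn f B hcore hsolv M hi
  exact isOpenPreimage_of_near hk (by omega) hA f (Set.Subset.refl _) hδ B hi hT hε h

end ring

section division

variable {k K D Ω : Type} [Field k] [Field K] [StarRing K] [DivisionRing D] [StarRing D]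
  [Algebra k K] [Algebra k D] [Algebra K D] [IsScalarTower k K D] [StarModule K D] {n N : ℕ}
  [Field Ω] [Algebra K Ω]

/-- Division algebras: the solvable step is the only open statement. -/
theorem near_of_solv (hk : IsGlobalFunctionField k) (hA : Anis k K D n) (hn : 3 ≤ n)
    (f : D →ₐ[K] Matrix (Fin n) (Fin n) Ω) (B : Basis (Fin N) k D)
    (hsolv : SolvAtF k K f B) (M : Subgroup (SUA f)) [M.Normal] (hi : M.index ≠ 0) :
    NearA k K f B M :=
  near_of_solvF hk hA hn f B (H871.noTarget_ff hk hA (by omega)) hsolv M hi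

/-- **The conjecture for `SU_1(D, *)`** over a global function field, from the solvable step. -/
theorem q1_of_solv (hk : IsGlobalFunctionField k) (hA : Anis k K D n) (hn : 3 ≤ n)
    [FiniteDimensional k D] (f : D →ₐ[K] Matrix (Fin n) (Fin n) Ω) (B : Basis (Fin N) k D)
    (hsolv : SolvAtF k K f B) :
    ∃ δ : SUA f →* HA D n (Adiv k K D), IsDiagonal δ ∧ DenseRange δ ∧
      ∀ M : Subgroup (SUA f), M.Normal → M.index ≠ 0 → IsOpenPreimage δ M :=
  q1_of_solvF hk hA hn f B (H871.noTarget_ff hk hA (by omega)) hsolv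

end division

end Vale.Agent.P011.H305
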